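import Mathlib

/-!
# Derivations of fields of characteristic zero

`exists_derivation`: if `y ∈ N` is transcendental over `F`, there is an `F`-derivation `D` of `N`
with `D y = 1`.
-/

namespace Vale.Agent.P297.H927

open MvPolynomial TensorProduct

open scoped IntermediateField.algebraAdjoinAdjoin in
theorem exists_derivation_of_basis {F N ι : Type*} [Field F] [Field N] [Algebra F N] [CharZero F]
    {v : ι → N} (hv : IsTranscendenceBasis F v) (f : ι → N) :
    ∃ D : Derivation F N N, ∀ i, D (v i) = f i := by
  classical
  have hfe1 : Algebra.FormallyEtale (Algebra.adjoin F (Set.range v))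
      (IntermediateField.adjoin F (Set.range v)) :=
    Algebra.FormallyEtale.of_isLocalization (nonZeroDivisors _)
  have halg : Algebra.IsAlgebraic (IntermediateField.adjoin F (Set.range v)) N :=
    hv.isAlgebraic_field
  have : CharZero (IntermediateField.adjoin F (Set.range v)) :=
    charZero_of_injective_algebraMap (algebraMap F _).injective
  have hfe2 : Algebra.FormallyEtale (IntermediateField.adjoin F (Set.range v)) N :=
    Algebra.FormallyEtale.of_isSeparable _ N
  have hfe : Algebra.FormallyEtale (Algebra.adjoin F (Set.range v)) N :=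
    Algebra.FormallyEtale.comp _ (IntermediateField.adjoin F (Set.range v)) _
  let e := hv.1.aevalEquiv
  let _ : Algebra (MvPolynomial ι F) N := (aeval v).toAlgebra
  have : IsScalarTower F (MvPolynomial ι F) N :=
    IsScalarTower.of_algebraMap_eq fun r => by
      change _ = aeval v (algebraMap F _ r)
      simp
  let d1 : Derivation F (MvPolynomial ι F) N := mkDerivation F f
  have hsm : ∀ (a : Algebra.adjoin F (Set.range v)) (n : N), (e.symm a) • n = a • n := by
    intro a n
    change aeval v (e.symm a) * n = (a : N) * n
    congr 1
    have h := hv.1.algebraMap_aevalEquiv (e.symm a)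
    rw [← h]
    change ((e (e.symm a) : Algebra.adjoin F (Set.range v)) : N) = _
    rw [AlgEquiv.apply_symm_apply]
  let D0 : Derivation F (Algebra.adjoin F (Set.range v)) N :=
    Derivation.mk' ((d1 : MvPolynomial ι F →ₗ[F] N) ∘ₗ e.symm.toLinearMap) (by
      intro a b
      simp only [LinearMap.comp_apply, AlgEquiv.toLinearMap_apply, map_mul, Derivation.coeFn_coe,
        Derivation.leibniz, hsm])
  let L : N ⊗[Algebra.adjoin F (Set.range v)] Ω[(Algebra.adjoin F (Set.range v))⁄F] →ₗ[N] N :=
    D0.liftKaehlerDifferential.liftBaseChange N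
  let e' := KaehlerDifferential.tensorKaehlerEquivOfFormallyEtale F
    (Algebra.adjoin F (Set.range v)) N
  refine ⟨(L ∘ₗ e'.symm.toLinearMap).compDer (KaehlerDifferential.D F N), fun i => ?_⟩
  have hX : e.symm ⟨v i, Algebra.subset_adjoin ⟨i, rfl⟩⟩ = X i := by
    rw [AlgEquiv.symm_apply_eq]
    ext
    simp [e]
  calc ((L ∘ₗ e'.symm.toLinearMap).compDer (KaehlerDifferential.D F N)) (v i)
      = L (e'.symm (KaehlerDifferential.D F N (v i))) := rfl
    _ = L (1 ⊗ₜ KaehlerDifferential.D F _ ⟨v i, Algebra.subset_adjoin ⟨i, rfl⟩⟩) := by
        exact congrArg L (KaehlerDifferential.tensorKaehlerEquivOfFormallyEtale_symm_D_algebraMap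
          F (Algebra.adjoin F (Set.range v)) N ⟨v i, Algebra.subset_adjoin ⟨i, rfl⟩⟩)
    _ = f i := by
        simp only [L, LinearMap.liftBaseChange_tmul, Derivation.liftKaehlerDifferential_comp_D,
          one_smul]
        change d1 (e.symm _) = _
        rw [hX]
        simp [d1]

/-- If `y` is transcendental over `F` (characteristic zero), some `F`-derivation has `D y = 1`. -/
theorem exists_derivation {F N : Type*} [Field F] [Field N] [Algebra F N] [CharZero F]
    {y : N} (hy : Transcendental F y) : ∃ D : Derivation F N N, D y = 1 := by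
  have h1 : AlgebraicIndepOn F id ({y} : Set N) := by
    exact algebraicIndependent_unique_type_iff.2 hy
  obtain ⟨s, hys, hs⟩ := exists_isTranscendenceBasis_superset h1
  obtain ⟨D, hD⟩ := exists_derivation_of_basis hs (fun _ => 1)
  exact ⟨D, hD ⟨y, hys rfl⟩⟩

section ker

variable {R N : Type*} [CommRing R] [Field N] [Algebra R N] [CharZero N]

/-- The constants of a derivation of a field form a subfield. -/
def consts (D : Derivation R N N) : Subfield N where
  carrier := {x | D x = 0}
  mul_mem' := by
    intro a b ha hb
    simp only [Set.mem_ofPred_eq] at *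
    rw [Derivation.leibniz, ha, hb]
    simp
  one_mem' := D.map_one_eq_zero
  add_mem' := by
    intro a b ha hb
    simp only [Set.mem_ofPred_eq] at *
    rw [map_add, ha, hb, add_zero]
  zero_mem' := map_zero D
  neg_mem' := by
    intro a ha
    simp only [Set.mem_ofPred_eq] at *
    rw [map_neg, ha, neg_zero]
  inv_mem' := by
    intro a ha
    simp only [Set.mem_ofPred_eq] at *
    rw [Derivation.leibniz_inv, ha, smul_zero]

omit [CharZero N] in
@[simp] theorem mem_consts {D : Derivation R N N} {x : N} : x ∈ consts D ↔ D x = 0 := Iff.rfl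

/-- A derivation that kills a subfield kills everything algebraic over it. -/
theorem eq_zero_of_isAlgebraic_consts {D : Derivation R N N} {x : N}
    (hx : IsAlgebraic (consts D) x) : D x = 0 := by
  have hint : IsIntegral (consts D) x := hx.isIntegral
  have hsep : (minpoly (consts D) x).Separable := (minpoly.irreducible hint).separable
  have h1 : ∀ p : Polynomial (consts D), D (Polynomial.aeval x p)
      = Polynomial.aeval x (Polynomial.derivative p) * D x := by
    intro p
    induction p using Polynomial.induction_on' with
    | add p q hp hq => simp only [map_add, hp, hq, add_mul]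
    | monomial n a =>
      rw [Polynomial.aeval_monomial, Derivation.leibniz, Derivation.leibniz_pow,
        Polynomial.derivative_monomial, Polynomial.aeval_monomial]
      have ha : D (algebraMap (consts D) N a) = 0 := a.2
      rw [ha]
      simp only [smul_eq_mul, nsmul_eq_mul, mul_zero, add_zero, map_mul, map_natCast]
      ring
  have h2 := h1 (minpoly (consts D) x)
  rw [minpoly.aeval, map_zero] at h2
  rcases mul_eq_zero.1 h2.symm with h3 | h3
  · exact absurd h3 (hsep.aeval_derivative_ne_zero (minpoly.aeval _ _))
  · exact h3

variable {F : Type*} [Field F] [Algebra F N]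

/-- If `D` is an `F`-derivation, `D x = 0` and `y` is algebraic over `F(x)`, then `D y = 0`. -/
theorem eq_zero_of_isAlgebraic_adjoin {D : Derivation F N N} {s : Set N} (hs : ∀ x ∈ s, D x = 0)
    {y : N} (hy : IsAlgebraic (IntermediateField.adjoin F s) y) : D y = 0 := by
  have hle : ∀ x ∈ IntermediateField.adjoin F s, x ∈ consts D := by
    intro x hx
    induction hx using IntermediateField.adjoin_induction with
    | mem x hx => exact hs x hx
    | algebraMap x => exact D.map_algebraMap x
    | add x y _ _ hx hy => exact add_mem hx hy
    | inv x _ hx => exact inv_mem hx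
    | mul x y _ _ hx hy => exact mul_mem hx hy
  obtain ⟨p, hp0, hp⟩ := hy
  let φ : IntermediateField.adjoin F s →+* consts D :=
    { toFun := fun x => ⟨x, hle x x.2⟩
      map_one' := rfl
      map_mul' := fun _ _ => rfl
      map_zero' := rfl
      map_add' := fun _ _ => rfl }
  refine eq_zero_of_isAlgebraic_consts ⟨p.map φ, ?_, ?_⟩
  · exact (Polynomial.map_ne_zero_iff φ.injective).2 hp0
  · rw [Polynomial.aeval_def, Polynomial.eval₂_map, ← hp, Polynomial.aeval_def]
    rfl

omit [CharZero N] in
/-- **Exchange.** `x` algebraic over `F(y)` and not over `F`: then `y` is algebraic over `F(x)`. -/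
theorem isAlgebraic_adjoin_exchange {x y : N} (hT : Transcendental F x)
    (hxy : IsAlgebraic (IntermediateField.adjoin F {y}) x) :
    IsAlgebraic (IntermediateField.adjoin F {x}) y := by
  rw [IntermediateField.isAlgebraic_adjoin_iff] at hxy ⊢
  by_cases hne : x = y
  · subst hne
    exact isAlgebraic_algebraMap
      (⟨x, Algebra.subset_adjoin rfl⟩ : Algebra.adjoin F ({x} : Set N))
  by_contra hTy
  have h1 : AlgebraicIndepOn F id ({x} : Set N) := algebraicIndependent_unique_type_iff.2 hT
  have h2 : AlgebraicIndepOn F id (insert y {x} : Set N) := by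
    refine h1.insert ?_
    rw [Set.image_id]
    exact hTy
  rw [Set.pair_comm] at h2
  have h3 := (AlgebraicIndepOn.insert_iff (by simpa using hne)).1 h2
  refine h3.2 ?_
  rw [Set.image_id]
  exact hxy

/-- **Kernel.** `D` an `F`-derivation with `D y ≠ 0`; if `x` is algebraic over `F(y)` and
`D x = 0`, then `x` is algebraic over `F`. -/
theorem isAlgebraic_of_der_eq_zero {D : Derivation F N N} {x y : N} (hy : D y ≠ 0)
    (hxy : IsAlgebraic (IntermediateField.adjoin F {y}) x) (hx : D x = 0) : IsAlgebraic F x := by
  by_contra hF
  have hT : Transcendental F x := hF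
  apply hy
  exact eq_zero_of_isAlgebraic_adjoin (s := {x}) (by simpa using hx)
    (isAlgebraic_adjoin_exchange hF hxy)

end ker

end Vale.Agent.P297.H927
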