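import Vale.Agent.P297.Gen.Setup
import Vale.Agent.P297.H860.Theta
import Vale.Agent.P297.H927.Der

/-!
Derivations which kill exactly `cl0 S` inside `cl0 (insert w S)`, and the points of a Weierstrass
curve with vanishing logarithmic derivative.
-/

set_option linter.unusedSectionVars false

namespace Vale.Agent.P297.H927

open Vale.Agent.P297.Gen Vale.Agent.P297.H860 Vale.Agent.P297.Z3 Vale.Agent.P297.G4
open WeierstrassCurve WeierstrassCurve.Affine

variable {N : Type} [Field N] [Algebra ℂ N] [IsAlgClosed N]

theorem charZero_of_C (N : Type) [Field N] [Algebra ℂ N] : CharZero N :=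
  charZero_of_injective_algebraMap (algebraMap ℂ N).injective

theorem isAlgebraic_adjoin_of {C M : Type} [Field C] [Field M] [Algebra C M]
    (F : IntermediateField C M) {S : Set M} (hS : ∀ z ∈ S, z ∈ F) {x w : M}
    (hx : IsAlgebraic (IntermediateField.adjoin C (insert w S)) x) :
    IsAlgebraic (IntermediateField.adjoin F {w}) x := by
  obtain ⟨p, hp0, hp⟩ := hx
  have hle : ∀ z ∈ IntermediateField.adjoin C (insert w S),
      z ∈ IntermediateField.adjoin F {w} := by
    intro z hz
    induction hz using IntermediateField.adjoin_induction with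
    | mem z hz =>
      rcases hz with rfl | hz
      · exact IntermediateField.subset_adjoin F _ rfl
      · exact (IntermediateField.adjoin F {w}).algebraMap_mem ⟨z, hS z hz⟩
    | algebraMap c => exact (IntermediateField.adjoin F {w}).algebraMap_mem (algebraMap C F c)
    | add a b _ _ ha hb => exact add_mem ha hb
    | inv a _ ha => exact inv_mem ha
    | mul a b _ _ ha hb => exact mul_mem ha hb
  let φ : IntermediateField.adjoin C (insert w S) →+* IntermediateField.adjoin F {w} :=
    { toFun := fun x => ⟨x, hle x x.2⟩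
      map_one' := rfl
      map_mul' := fun _ _ => rfl
      map_zero' := rfl
      map_add' := fun _ _ => rfl }
  refine ⟨p.map φ, (Polynomial.map_ne_zero_iff φ.injective).2 hp0, ?_⟩
  rw [Polynomial.aeval_def, Polynomial.eval₂_map, ← hp, Polynomial.aeval_def]
  rfl

theorem isAlgebraic_adjoin_cl0 {S : Set N} {x w : N} (hx : x ∈ cl0 (insert w S)) :
    IsAlgebraic (IntermediateField.adjoin (cl0 S) {w}) x :=
  isAlgebraic_adjoin_of (cl0 S) (fun z hz => mem_cl0.2 (isAlgebraic_algebraMap
    (⟨z, IntermediateField.subset_adjoin ℂ S hz⟩ : IntermediateField.adjoin ℂ S))) (mem_cl0.1 hx)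

/-- `D` kills `cl0 S` and, inside `cl0 (insert w S)`, nothing else; `D w = 1`. -/
structure IsDer (S : Set N) (w : N) (D : Derivation ℤ N N) : Prop where
  one : D w = 1
  zero : ∀ c ∈ cl0 S, D c = 0
  ker : ∀ x ∈ cl0 (insert w S), D x = 0 → x ∈ cl0 S

theorem exists_isDer {S : Set N} {w : N} (hw : w ∉ cl0 S) :
    ∃ D : Derivation ℤ N N, IsDer S w D := by
  have := charZero_of_C N
  have : CharZero (cl0 S) := charZero_of_injective_algebraMap (algebraMap ℂ (cl0 S)).injective
  have hT : Transcendental (cl0 S) w := fun h => hw (cl0_closed S w h)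
  obtain ⟨D, hD⟩ := exists_derivation hT
  refine ⟨D.restrictScalars ℤ, hD, fun c hc => D.map_algebraMap ⟨c, hc⟩, fun x hx h0 => ?_⟩
  refine cl0_closed S x (isAlgebraic_of_der_eq_zero (D := D) (y := w) ?_
    (isAlgebraic_adjoin_cl0 hx) h0)
  rw [hD]
  exact one_ne_zero

variable {S : Set N} {w : N} {D : Derivation ℤ N N}

/-- A point with vanishing logarithmic derivative is defined over the constants. -/
theorem theta_eq_zero (hD : IsDer S w D) {a b : N} (ha : a ∈ cl0 S) (hb : b ∈ cl0 S)
    {x y : N} (h : (wc a b).toAffine.Nonsingular x y) (hx : x ∈ cl0 (insert w S))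
    (h0 : theta D (.some x y h) = 0) : x ∈ cl0 S ∧ y ∈ cl0 S := by
  have := charZero_of_C N
  have e := wc_equation.1 h.1
  have hxS : x ∈ cl0 S := by
    rw [theta_some] at h0
    rcases div_eq_zero_iff.1 h0 with h1 | h1
    · exact hD.ker x hx h1
    · subst h1
      refine cl0_closed S x ⟨Polynomial.X ^ 3 + Polynomial.C ⟨a, ha⟩ * Polynomial.X +
        Polynomial.C ⟨b, hb⟩, ?_, ?_⟩
      · intro h2
        have h3 := congrArg (fun p => Polynomial.coeff p 3) h2
        simp at h3
      · simp only [map_add, map_mul, map_pow, Polynomial.aeval_X, Polynomial.aeval_C]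
        change x ^ 3 + a * x + b = 0
        linear_combination -e
  refine ⟨hxS, cl0_closed S y ⟨Polynomial.X ^ 2 - Polynomial.C
    ⟨x ^ 3 + a * x + b, add_mem (add_mem (pow_mem hxS 3) (mul_mem ha hxS)) hb⟩,
    Polynomial.X_pow_sub_C_ne_zero (by norm_num) _, ?_⟩⟩
  simp only [map_sub, map_pow, Polynomial.aeval_X, Polynomial.aeval_C]
  change y ^ 2 - (x ^ 3 + a * x + b) = 0
  linear_combination e

end Vale.Agent.P297.H927
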